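import Mathlib

/-!
P130, module Spectral: the Koopman operator of an invertible measure-preserving map.
-/

noncomputable section

namespace Vale.Agent.P130.Full.Spectral

open MeasureTheory Filter

variable {X : Type*} [MeasurableSpace X] {μ : Measure X} {T : X ≃ᵐ X}
  (hT : MeasurePreserving T μ μ)

include hT in
theorem measurePreserving_zpow (m : ℤ) :
    MeasurePreserving ⇑((T.toEquiv : Equiv.Perm X) ^ m) μ μ := by
  obtain ⟨a, rfl | rfl⟩ := Int.eq_nat_or_neg m
  · rw [zpow_natCast, Equiv.Perm.coe_pow]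
    exact hT.iterate a
  · rw [zpow_neg, zpow_natCast, ← inv_pow, Equiv.Perm.coe_pow]
    exact (MeasurePreserving.symm T hT).iterate a

include hT in
theorem ae_comp {α : Type*} {u v : X → α} (h : u =ᵐ[μ] v) :
    (u ∘ T : X → α) =ᵐ[μ] v ∘ T :=
  hT.quasiMeasurePreserving.ae_eq_comp h

/-- The Koopman operator. -/
def koopman : Lp ℂ 2 μ ≃ₗᵢ[ℂ] Lp ℂ 2 μ :=
  LinearIsometryEquiv.ofSurjective (Lp.compMeasurePreservingₗᵢ ℂ T hT)
    fun v => ⟨Lp.compMeasurePreserving T.symm (MeasurePreserving.symm T hT) v, by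
      refine Lp.ext ((Lp.coeFn_compMeasurePreserving _ _).trans
        ((ae_comp hT (Lp.coeFn_compMeasurePreserving _ _)).trans (.of_forall fun p => ?_)))
      simp⟩

theorem koopman_coe (v : Lp ℂ 2 μ) : (koopman hT v : X → ℂ) =ᵐ[μ] v ∘ T :=
  Lp.coeFn_compMeasurePreserving v hT

theorem koopman_zpow_coe (v : Lp ℂ 2 μ) (m : ℤ) :
    ((koopman hT ^ m) v : X → ℂ) =ᵐ[μ] v ∘ ⇑((T.toEquiv : Equiv.Perm X) ^ m) := by
  induction m using Int.induction_on with
  | zero => simp
  | succ a ih =>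
    rw [add_comm (a : ℤ) 1, zpow_one_add, add_comm 1 (a : ℤ), zpow_add_one]
    exact (koopman_coe hT _).trans ((ae_comp hT ih).trans (.of_forall fun p => rfl))
  | pred a ih =>
    have h : ((koopman hT ^ (-(a : ℤ))) v : X → ℂ) =ᵐ[μ]
        ((koopman hT ^ (-(a : ℤ) - 1)) v) ∘ T := by
      have he : (koopman hT ^ (-(a : ℤ))) v = koopman hT ((koopman hT ^ (-(a : ℤ) - 1)) v) := by
        conv_lhs => rw [show (-(a : ℤ)) = 1 + (-(a : ℤ) - 1) by ring, zpow_one_add]
        rfl
      rw [he]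
      exact koopman_coe hT _
    refine EventuallyEq.trans ?_
      (((MeasurePreserving.symm T hT).quasiMeasurePreserving.ae_eq_comp
        (h.symm.trans ih)).trans ?_)
    · exact .of_forall fun p => by simp
    · rw [zpow_sub_one]
      exact .of_forall fun p => rfl

end Vale.Agent.P130.Full.Spectral
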