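import Vale.Agent.P130.Full.Spectral.Circle
import Vale.Agent.P130.Full.Riesz.Basic

/-!
P130, module Spectral: correlations of the bases of a rank-one system and the mass at `0`.
-/

noncomputable section

namespace Vale.Agent.P130.Full.Spectral

open MeasureTheory Filter Finset
open Vale.Agent.P130.Morse (Circ Poly ev ev_single act act_single zpow_zpow_apply inner_zpow_zpow
  integrable_circ integral_fourier)
open scoped ComplexConjugate InnerProductSpace Topology

/-- The coefficients of a product are equal and its exponents distinct. -/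
theorem Q_expand (S : Stack) {k n : ℕ} (hkn : k ≤ n) :
    ∃ P : Finset ℕ, (∀ p ∈ P, p < S.height n) ∧ 2 ^ (n - k) ≤ P.card ∧
      Q S k n = ∑ p ∈ P, AddMonoidAlgebra.single (-(p : ℤ))
        (((1 / Real.sqrt P.card : ℝ)) : ℂ) := by
  induction n, hkn using Nat.le_induction with
  | base =>
    refine ⟨{0}, fun p hp => by simp at hp; subst hp; exact S.height_pos k, by simp, ?_⟩
    rw [Q, Ico_self, prod_empty, sum_singleton, card_singleton, AddMonoidAlgebra.one_def]
    simp only [Nat.cast_zero, neg_zero, Nat.cast_one, Real.sqrt_one, div_one, Complex.ofReal_one]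
  | succ n hkn ih =>
    obtain ⟨P, hlt, hcard, hQ⟩ := ih
    have hinj : Set.InjOn (fun x : Fin (S.m n) × ℕ => S.pos n x.1 + x.2)
        ↑((univ : Finset (Fin (S.m n))) ×ˢ P) := by
      intro x hx y hy hxy
      simp only [coe_product, Set.mem_prod, mem_coe] at hx hy
      obtain ⟨h1, h2⟩ := S.pos_add_inj n (hlt _ hx.2) (hlt _ hy.2) hxy
      exact Prod.ext h1 h2
    refine ⟨((univ : Finset (Fin (S.m n))) ×ˢ P).image fun x => S.pos n x.1 + x.2, ?_, ?_, ?_⟩
    · intro i hi
      obtain ⟨x, hx, rfl⟩ := mem_image.1 hi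
      have := hlt _ (mem_product.1 hx).2
      have := S.pos_add_le_succ n x.1
      omega
    · rw [card_image_of_injOn hinj, card_product, card_univ, Fintype.card_fin,
        Nat.succ_sub hkn, pow_succ, mul_comm (2 ^ (n - k))]
      exact Nat.mul_le_mul (S.two_le n) hcard
    · rw [card_image_of_injOn hinj, sum_image hinj, card_product, card_univ, Fintype.card_fin,
        Q_succ S hkn, hQ, step, mul_comm, Finset.sum_mul_sum, sum_product]
      refine sum_congr rfl fun j _ => sum_congr rfl fun p _ => ?_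
      rw [AddMonoidAlgebra.single_mul_single]
      congr 1
      · push_cast; ring
      · rw [← Complex.ofReal_mul, Nat.cast_mul, Real.sqrt_mul (Nat.cast_nonneg _),
          one_div_mul_one_div]

variable {H : Type*} [NormedAddCommGroup H] [InnerProductSpace ℂ H]

theorem zpow_fixed (U : H ≃ₗᵢ[ℂ] H) {x : H} (hx : U x = x) : ∀ i : ℤ, (U ^ i) x = x := by
  intro i
  induction i using Int.induction_on with
  | zero => simp
  | succ m ih => rw [add_comm, ← zpow_zpow_apply, zpow_one, ih, hx]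
  | pred m ih =>
    have e : (U ^ (-(m : ℤ) - 1)) ((U ^ (1 : ℤ)) x) = (U ^ (-(m : ℤ) - 1 + 1)) x :=
      zpow_zpow_apply U _ _ x
    rw [zpow_one, hx, sub_add_cancel, ih] at e
    exact e

/-- What is used of the bases of a rank-one system. -/
structure Base (S : Stack) (U : H ≃ₗᵢ[ℂ] H) where
  one : H
  U_one : U one = one
  inner_one : ⟪one, one⟫_ℂ = 1
  v : ℕ → H
  inner_v : ∀ n, ⟪v n, v n⟫_ℂ = 1
  b : ℕ → ℝ
  b_pos : ∀ n, 0 < b n
  inner_one_v : ∀ n, ⟪one, v n⟫_ℂ = (Real.sqrt (b n) : ℂ)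
  orth : ∀ n, ∀ r : ℤ, r ≠ 0 → |r| < (S.height n : ℤ) → ⟪v n, (U ^ r) (v n)⟫_ℂ = 0
  v_eq : ∀ n, v n = act U (step S n) (v (n + 1))
  tend : Tendsto (fun n => (S.height n : ℝ) * b n) atTop (𝓝 1)
  total : ∀ g : H, (∀ n i, i < S.height n → ⟪g, (U ^ (-(i : ℤ))) (v n)⟫_ℂ = 0) → g = 0

namespace Base

variable {S : Stack} {U : H ≃ₗᵢ[ℂ] H} (V : Base S U)

theorem v_eq_Q {k n : ℕ} (hkn : k ≤ n) : V.v k = act U (Q S k n) (V.v n) := by
  induction n, hkn using Nat.le_induction with
  | base => simp [Q]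
  | succ n hkn ih =>
    rw [ih, Q_succ S hkn, map_mul, mul_apply_eq_comp, ← V.v_eq]

theorem kappa (n : ℕ) (r : ℤ) (hr : |r| < (S.height n : ℤ)) :
    ⟪V.v n, (U ^ r) (V.v n)⟫_ℂ - (if r = 0 then 1 else 0) = 0 := by
  split_ifs with h
  · subst h
    show ⟪V.v n, V.v n⟫_ℂ - 1 = 0
    rw [V.inner_v, sub_self]
  · rw [sub_zero, V.orth n r h hr]

theorem norm_v (n : ℕ) : ‖V.v n‖ = 1 := by
  have h : ‖V.v n‖ ^ 2 = 1 := by rw [← inner_self_eq_norm_sq (𝕜 := ℂ), V.inner_v]; simp
  exact (sq_eq_one_iff.1 h).resolve_right fun hneg => by linarith [norm_nonneg (V.v n)]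

theorem kappa_le (n : ℕ) (r : ℤ) :
    ‖⟪V.v n, (U ^ r) (V.v n)⟫_ℂ - (if r = 0 then 1 else 0)‖ ≤ 1 := by
  split_ifs with h
  · subst h
    show ‖⟪V.v n, V.v n⟫_ℂ - 1‖ ≤ 1
    rw [V.inner_v, sub_self, norm_zero]
    exact zero_le_one
  · rw [sub_zero]
    exact le_trans (norm_inner_le_norm _ _) (by simp [V.norm_v])

/-- The correlation of a base minus the coefficient of a finite product is small. -/
theorem approx {k n : ℕ} (hkn : k ≤ n) (q : ℤ) :
    ‖⟪V.v k, (U ^ q) (V.v k)⟫_ℂ -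
      ∫ x, fourier q x * ((‖ev (Q S k n) x‖ ^ 2 : ℝ) : ℂ) ∂haar‖ ≤
      2 * ((q.natAbs : ℝ) + 1) ^ 2 / 2 ^ (n - k) := by
  obtain ⟨P, hlt, hcard, hQ⟩ := Q_expand S hkn
  set c : ℂ := (((1 / Real.sqrt P.card : ℝ)) : ℂ) with hc
  set G := V.v n with hG
  have hg : ⟪V.v k, (U ^ q) (V.v k)⟫_ℂ =
      ∑ i ∈ P, ∑ j ∈ P, conj c * (c * ⟪G, (U ^ (q + -(j : ℤ) - -(i : ℤ))) G⟫_ℂ) := by
    rw [V.v_eq_Q hkn, ← hG, hQ, map_sum, _root_.sum_apply, map_sum, sum_inner]
    refine sum_congr rfl fun i _ => ?_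
    rw [inner_sum]
    refine sum_congr rfl fun j _ => ?_
    rw [act_single, act_single, map_smul, zpow_zpow_apply, inner_smul_left, inner_smul_right,
      inner_zpow_zpow]
  have hi : ∫ x, fourier q x * ((‖ev (Q S k n) x‖ ^ 2 : ℝ) : ℂ) ∂haar =
      ∑ i ∈ P, ∑ j ∈ P, conj c * (c * (if q + -(j : ℤ) - -(i : ℤ) = 0 then 1 else 0)) := by
    have hpt : ∀ x, fourier q x * ((‖ev (Q S k n) x‖ ^ 2 : ℝ) : ℂ) =
        ∑ i ∈ P, ∑ j ∈ P, conj c * (c * fourier (q + -(j : ℤ) - -(i : ℤ)) x) := by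
      intro x
      rw [Complex.ofReal_pow, ← Complex.conj_mul', hQ, map_sum, ContinuousMap.sum_apply]
      simp only [map_sum]
      rw [sum_mul_sum]
      simp only [mul_sum, ev_single, ContinuousMap.smul_apply, smul_eq_mul,
        map_mul, ← fourier_neg, sub_eq_add_neg, fourier_add]
      exact sum_congr rfl fun i _ => sum_congr rfl fun j _ => by ring
    rw [integral_congr_ae (.of_forall hpt),
      integral_finsetSum _ fun i _ => integrable_circ (by fun_prop)]
    refine sum_congr rfl fun i _ => ?_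
    rw [integral_finsetSum _ fun j _ => integrable_circ (by fun_prop)]
    refine sum_congr rfl fun j _ => ?_
    rw [integral_const_mul, integral_const_mul, integral_fourier]
  rw [hg, hi, ← sum_product', ← sum_product', ← sum_sub_distrib]
  set K := q.natAbs + 1 with hK
  set h := S.height n with hh
  set bad : Finset (ℕ × ℕ) := range K ×ˢ Ico (h - K) h ∪ Ico (h - K) h ×ˢ range K with hbad
  have hzero : ∀ p ∈ P ×ˢ P, p ∉ bad →
      conj c * (c * ⟪G, (U ^ (q + -(p.2 : ℤ) - -(p.1 : ℤ))) G⟫_ℂ) -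
        conj c * (c * (if q + -(p.2 : ℤ) - -(p.1 : ℤ) = 0 then 1 else 0)) = 0 := by
    intro p hp hpb
    rw [← mul_sub, ← mul_sub, V.kappa, mul_zero, mul_zero]
    have h1 : p.1 < h := hlt _ (mem_product.1 hp).1
    have h2 : p.2 < h := hlt _ (mem_product.1 hp).2
    simp only [hbad, mem_union, mem_product, mem_range, mem_Ico, not_or, not_and] at hpb
    rw [abs_lt]
    omega
  rw [← sum_subset (inter_subset_left (s₂ := bad))
    fun p hp hpn => hzero p hp fun hb => hpn (mem_inter.2 ⟨hp, hb⟩)]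
  have hP0 : (0 : ℝ) < P.card := by
    exact_mod_cast lt_of_lt_of_le (pow_pos (by norm_num : (0 : ℕ) < 2) _) hcard
  have hcn : ‖c‖ = 1 / Real.sqrt P.card := by
    rw [hc, Complex.norm_real, Real.norm_eq_abs, abs_of_nonneg (by positivity)]
  refine le_trans (norm_sum_le_of_le _ (fun p _ => (?_ : _ ≤ 1 / (P.card : ℝ)))) ?_
  · rw [← mul_sub, ← mul_sub, norm_mul, norm_mul, RCLike.norm_conj, ← mul_assoc, hcn,
      div_mul_div_comm, one_mul, Real.mul_self_sqrt hP0.le]
    exact mul_le_of_le_one_right (by positivity) (V.kappa_le _ _)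
  rw [sum_const, nsmul_eq_mul, mul_one_div]
  refine div_le_div₀ (by positivity) ?_ (by positivity) (by exact_mod_cast hcard)
  have hbc : bad.card ≤ 2 * K ^ 2 := by
    rw [hbad]
    refine le_trans (card_union_le _ _) ?_
    rw [card_product, card_product, card_range, Nat.card_Ico]
    have : h - (h - K) ≤ K := by omega
    calc K * (h - (h - K)) + (h - (h - K)) * K ≤ K * K + K * K :=
          Nat.add_le_add (Nat.mul_le_mul_left _ this) (Nat.mul_le_mul_right _ this)
      _ = _ := by ring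
  calc (((P ×ˢ P ∩ bad).card : ℕ) : ℝ) ≤ ((2 * K ^ 2 : ℕ) : ℝ) := by
        exact_mod_cast le_trans (card_le_card inter_subset_right) hbc
    _ = _ := by rw [hK]; push_cast; ring

variable (D : Densities S)

theorem corr (k : ℕ) (q : ℤ) : ⟪V.v k, (U ^ q) (V.v k)⟫_ℂ =
    (∫ x, fourier q x * (D.D k x : ℂ) ∂haar) + (D.C k : ℂ) := by
  refine tendsto_nhds_unique ?_ (D.lim k q)
  rw [← tendsto_add_atTop_iff_nat k]
  refine tendsto_iff_norm_sub_tendsto_zero.2 (squeeze_zero (fun _ => norm_nonneg _)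
    (fun j => ?_) (g := fun j : ℕ => 2 * ((q.natAbs : ℝ) + 1) ^ 2 * (1 / 2) ^ j) ?_)
  · rw [norm_sub_rev, one_div, inv_pow, ← div_eq_mul_inv]
    have := V.approx (Nat.le_add_left k j) q
    rwa [Nat.add_sub_cancel] at this
  · simpa using (tendsto_pow_atTop_nhds_zero_of_lt_one (by norm_num : (0 : ℝ) ≤ 1 / 2)
      (by norm_num)).const_mul (2 * ((q.natAbs : ℝ) + 1) ^ 2)

theorem inner_one_zpow (r : ℤ) (x : H) : ⟪V.one, (U ^ r) x⟫_ℂ = ⟪V.one, x⟫_ℂ := by
  have h := zpow_fixed U V.U_one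
  rw [← LinearIsometryEquiv.inner_map_map (U ^ r) V.one x, h]

/-- The base without its mean. -/
def w (k : ℕ) : H := V.v k - (Real.sqrt (V.b k) : ℂ) • V.one

theorem inner_one_w (k : ℕ) : ⟪V.one, V.w k⟫_ℂ = 0 := by
  rw [w, inner_sub_right, inner_smul_right, V.inner_one, V.inner_one_v, mul_one, sub_self]

theorem zpow_one_eq (i : ℤ) : (U ^ i) V.one = V.one := zpow_fixed U V.U_one i

theorem inner_v_one (k : ℕ) : ⟪V.v k, V.one⟫_ℂ = (Real.sqrt (V.b k) : ℂ) := by
  rw [← inner_conj_symm, V.inner_one_v, Complex.conj_ofReal]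

theorem corr_w (k : ℕ) (q : ℤ) : ⟪V.w k, (U ^ q) (V.w k)⟫_ℂ =
    (∫ x, fourier q x * (D.D k x : ℂ) ∂haar) + ((D.C k - V.b k : ℝ) : ℂ) := by
  rw [w, map_sub, map_smul, V.zpow_one_eq, inner_sub_left, inner_sub_right, inner_sub_right,
    inner_smul_left, inner_smul_left, inner_smul_right, inner_smul_right, V.corr D, V.inner_v_one,
    V.inner_one, Complex.conj_ofReal, V.inner_one_zpow, V.inner_one_v]
  have hs : (Real.sqrt (V.b k) : ℂ) * (Real.sqrt (V.b k) : ℂ) = (V.b k : ℂ) := by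
    rw [← Complex.ofReal_mul, Real.mul_self_sqrt (V.b_pos k).le]
  push_cast
  linear_combination -hs

/-- An invariant vector of mean zero vanishes. -/
theorem invariant_eq_zero {g : H} (hg : U g = g) (h1 : ⟪g, V.one⟫_ℂ = 0) : g = 0 := by
  have hgz := zpow_fixed U hg
  have htr : ∀ n (i : ℤ), ⟪g, (U ^ i) (V.v n)⟫_ℂ = ⟪g, V.v n⟫_ℂ := fun n i => by
    conv_lhs => rw [← hgz i, LinearIsometryEquiv.inner_map_map]
  refine V.total g fun k i _ => ?_
  rw [htr]
  set u : ℕ → H := fun n =>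
    (Real.sqrt (V.b n) : ℂ) • ∑ i ∈ range (S.height n), (U ^ (-(i : ℤ))) (V.v n) with hu
  have hnorm : ∀ n, ‖u n - V.one‖ ^ 2 = 1 - S.height n * V.b n := fun n => by
    have hss : ⟪∑ i ∈ range (S.height n), (U ^ (-(i : ℤ))) (V.v n),
        ∑ i ∈ range (S.height n), (U ^ (-(i : ℤ))) (V.v n)⟫_ℂ = (S.height n : ℂ) := by
      rw [sum_inner, Finset.sum_congr rfl fun i (hi : i ∈ range (S.height n)) =>
        (show ⟪(U ^ (-(i : ℤ))) (V.v n),
          ∑ j ∈ range (S.height n), (U ^ (-(j : ℤ))) (V.v n)⟫_ℂ = 1 by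
          rw [inner_sum, sum_eq_single i]
          · rw [LinearIsometryEquiv.inner_map_map, V.inner_v]
          · intro j hj hji
            rw [inner_zpow_zpow, V.orth]
            · omega
            · have := mem_range.1 hi
              have := mem_range.1 hj
              rw [abs_lt]; omega
          · exact fun h => absurd hi h)]
      simp
    have h1s : ⟪V.one, ∑ i ∈ range (S.height n), (U ^ (-(i : ℤ))) (V.v n)⟫_ℂ =
        (S.height n : ℂ) * (Real.sqrt (V.b n) : ℂ) := by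
      rw [inner_sum, Finset.sum_congr rfl fun i _ =>
        (V.inner_one_zpow _ _).trans (V.inner_one_v n), sum_const, card_range, nsmul_eq_mul]
    have hs1 : ⟪∑ i ∈ range (S.height n), (U ^ (-(i : ℤ))) (V.v n), V.one⟫_ℂ =
        (S.height n : ℂ) * (Real.sqrt (V.b n) : ℂ) := by
      rw [← inner_conj_symm, h1s, map_mul, Complex.conj_ofReal, map_natCast]
    have hs : (Real.sqrt (V.b n) : ℂ) * (Real.sqrt (V.b n) : ℂ) = (V.b n : ℂ) := by
      rw [← Complex.ofReal_mul, Real.mul_self_sqrt (V.b_pos n).le]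
    have hc : ⟪u n - V.one, u n - V.one⟫_ℂ = ((1 - S.height n * V.b n : ℝ) : ℂ) := by
      simp only [hu, inner_sub_left, inner_sub_right, inner_smul_left, inner_smul_right,
        Complex.conj_ofReal, hss, h1s, hs1, V.inner_one]
      push_cast
      linear_combination -(S.height n : ℂ) * hs
    rw [← inner_self_eq_norm_sq (𝕜 := ℂ), hc]
    exact Complex.ofReal_re _
  have hlim : Tendsto (fun n => ‖⟪g, u n⟫_ℂ‖) atTop (𝓝 0) := by
    have h0 : Tendsto (fun n => ‖u n - V.one‖ ^ 2) atTop (𝓝 0) := by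
      simp only [hnorm]
      simpa using V.tend.const_sub 1
    have h0' : Tendsto (fun n => ‖u n - V.one‖) atTop (𝓝 0) := by
      simpa [Real.sqrt_sq (norm_nonneg _)] using h0.sqrt
    refine squeeze_zero (fun _ => norm_nonneg _) (fun n => ?_) (g := fun n => ‖g‖ * ‖u n - V.one‖)
      (by simpa using h0'.const_mul ‖g‖)
    rw [show ⟪g, u n⟫_ℂ = ⟪g, u n - V.one⟫_ℂ by rw [inner_sub_right, h1, sub_zero]]
    exact norm_inner_le_norm _ _
  have hev : ∀ᶠ n in atTop, ‖⟪g, V.v k⟫_ℂ‖ ≤ 2 * ‖⟪g, u n⟫_ℂ‖ := by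
    filter_upwards [eventually_ge_atTop k, V.tend.eventually (eventually_gt_nhds
      (show (1 / 4 : ℝ) < 1 by norm_num))] with n hn hb
    obtain ⟨P, hlt, -, hQ⟩ := Q_expand S hn
    have hPh : (P.card : ℝ) ≤ S.height n := by
      exact_mod_cast le_trans (card_le_card fun p hp => mem_range.2 (hlt p hp)) (card_range _).le
    have hgu : ‖⟪g, u n⟫_ℂ‖ = S.height n * Real.sqrt (V.b n) * ‖⟪g, V.v n⟫_ℂ‖ := by
      simp only [hu, inner_smul_right, inner_sum, htr, sum_const, card_range, nsmul_eq_mul,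
        norm_mul, Complex.norm_real, Complex.norm_natCast, Real.norm_eq_abs,
        abs_of_nonneg (Real.sqrt_nonneg _)]
      ring
    have hgk : ‖⟪g, V.v k⟫_ℂ‖ = Real.sqrt P.card * ‖⟪g, V.v n⟫_ℂ‖ := by
      rw [V.v_eq_Q hn, hQ, map_sum, _root_.sum_apply, inner_sum]
      simp only [act_single, inner_smul_right, htr, sum_const, nsmul_eq_mul, norm_mul,
        Complex.norm_real, Complex.norm_natCast, Real.norm_eq_abs,
        abs_of_nonneg (one_div_nonneg.2 (Real.sqrt_nonneg (P.card : ℝ)))]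
      rw [← mul_assoc, mul_one_div, Real.div_sqrt]
    rw [hgu, hgk, ← mul_assoc]
    refine mul_le_mul_of_nonneg_right ?_ (norm_nonneg _)
    rw [Real.sqrt_le_iff]
    refine ⟨by positivity, ?_⟩
    rw [mul_pow, mul_pow, Real.sq_sqrt (V.b_pos n).le]
    nlinarith [Nat.cast_nonneg (α := ℝ) (S.height n)]
  have h0 : ‖⟪g, V.v k⟫_ℂ‖ ≤ 0 :=
    ge_of_tendsto (by simpa using hlim.const_mul 2) hev
  exact norm_eq_zero.1 (le_antisymm h0 (norm_nonneg _))

theorem norm_average_le (m : ℕ) (x : Circ) :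
    ‖(m : ℂ)⁻¹ * ∑ i ∈ range m, fourier (i : ℤ) x‖ ≤ 1 := by
  rcases Nat.eq_zero_or_pos m with rfl | hm
  · simp
  rw [norm_mul, norm_inv, Complex.norm_natCast, inv_mul_le_iff₀ (by exact_mod_cast hm), mul_one]
  refine le_trans (norm_sum_le _ _) (le_of_eq ?_)
  have h1 : ∀ i : ℤ, ‖fourier i x‖ = 1 := fun i => Circle.norm_coe _
  rw [Finset.sum_congr rfl fun i _ => h1 ((i : ℕ) : ℤ)]
  simp

theorem ae_average_tendsto : ∀ᵐ x ∂haar,
    Tendsto (fun m : ℕ => (m : ℂ)⁻¹ * ∑ i ∈ range m, fourier (i : ℤ) x) atTop (𝓝 0) := by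
  have hne : ∀ᵐ x ∂haar, rep x ≠ 1 :=
    measurePreserving_rep.quasiMeasurePreserving.ae (p := fun t => t ≠ 1)
      (ae_restrict_of_ae (Measure.ae_ne volume 1))
  filter_upwards [hne] with x hx
  set z : ℂ := fourier 1 x with hz
  have hz1 : ‖z‖ = 1 := Circle.norm_coe _
  have hpow : ∀ i : ℕ, fourier (i : ℤ) x = z ^ i := fun i => by
    induction i with
    | zero => simp
    | succ i ih => rw [pow_succ, ← ih, hz, ← fourier_add, Nat.cast_succ]
  have hzne : z ≠ 1 := by
    intro h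
    rw [hz, fourier_apply, one_smul] at h
    have h2 : AddCircle.toCircle x = AddCircle.toCircle (0 : Circ) := by
      rw [AddCircle.toCircle_zero]
      exact Circle.coe_eq_one.1 h
    have h3 := AddCircle.injective_toCircle one_ne_zero h2
    apply hx
    rw [h3]
    show ((AddCircle.equivIoc 1 0 (0 : Circ)) : ℝ) = 1
    have h4 : ((1 : ℝ) : Circ) = 0 := AddCircle.coe_period 1
    rw [← h4, AddCircle.equivIoc_coe_eq]
    norm_num
  refine squeeze_zero_norm (a := fun m : ℕ => 2 / ‖z - 1‖ * (m : ℝ)⁻¹) (fun m => ?_)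
    (by simpa using tendsto_inv_atTop_nhds_zero_nat.const_mul (2 / ‖z - 1‖))
  simp only [hpow]
  rw [geom_sum_eq hzne, norm_mul, norm_inv, norm_div, Complex.norm_natCast, mul_comm]
  gcongr
  refine le_trans (norm_sub_le _ _) ?_
  rw [norm_pow, hz1, one_pow, norm_one]
  norm_num

/-- The mass of the correlation at `0` is the squared mean. -/
theorem C_eq [CompleteSpace H] (k : ℕ) : D.C k = V.b k := by
  set f : H →L[ℂ] H := (U.toContinuousLinearEquiv : H →L[ℂ] H) with hf
  have hf1 : ‖f‖ ≤ 1 :=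
    ContinuousLinearMap.opNorm_le_bound _ zero_le_one fun x => by simp [hf]
  have hproj : (f.eqLocus (1 : H →L[ℂ] H)).orthogonalProjectionOnto (V.w k) = 0 := by
    rw [Submodule.orthogonalProjectionOnto_eq_zero_iff, Submodule.mem_orthogonal]
    intro g hg
    have hgU : U g = g := hg
    set a : ℂ := ⟪V.one, g⟫_ℂ with ha
    have h0 : g - a • V.one = 0 := by
      refine V.invariant_eq_zero (by rw [map_sub, map_smul, hgU, V.U_one]) ?_
      rw [inner_sub_left, inner_smul_left, V.inner_one, ha, inner_conj_symm, mul_one, sub_self]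
    rw [sub_eq_zero.1 h0, inner_smul_left, V.inner_one_w, mul_zero]
  have hT := f.tendsto_birkhoffAverage_orthogonalProjection hf1 (V.w k)
  rw [hproj, ZeroMemClass.coe_zero] at hT
  have hpow : ∀ (i : ℕ) (x : H), (⇑f)^[i] x = (U ^ (i : ℤ)) x := fun i x => by
    induction i with
    | zero => simp
    | succ i ih =>
      rw [Function.iterate_succ_apply', ih, Nat.cast_succ, add_comm, ← zpow_zpow_apply, zpow_one]
      rfl
  have hinner : Tendsto (fun m : ℕ => ⟪V.w k, birkhoffAverage ℂ f _root_.id m (V.w k)⟫_ℂ) atTop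
      (𝓝 0) := by
    simpa using (tendsto_const_nhds (x := V.w k)).inner hT
  have hint : Tendsto (fun m : ℕ => ∫ x,
      ((m : ℂ)⁻¹ * ∑ i ∈ range m, fourier (i : ℤ) x) * (D.D k x : ℂ) ∂haar) atTop (𝓝 0) := by
    have h0 : (∫ _x, (0 : ℂ) ∂haar) = 0 := integral_zero _ _
    rw [← h0]
    refine tendsto_integral_of_dominated_convergence (D.D k) (fun m => ?_) (D.int k)
      (fun m => .of_forall fun x => ?_) ?_
    · exact ((by fun_prop : Continuous fun x : Circ => (m : ℂ)⁻¹ *
        ∑ i ∈ range m, fourier (i : ℤ) x).aestronglyMeasurable).mul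
        (Complex.measurable_ofReal.comp (D.meas k)).aestronglyMeasurable
    · rw [norm_mul, Complex.norm_real, Real.norm_eq_abs, abs_of_nonneg (D.nonneg k x)]
      exact mul_le_of_le_one_left (D.nonneg k x) (norm_average_le m x)
    · filter_upwards [ae_average_tendsto] with x hx
      simpa using hx.mul_const (D.D k x : ℂ)
  have heq : ∀ m : ℕ, 0 < m → ⟪V.w k, birkhoffAverage ℂ f _root_.id m (V.w k)⟫_ℂ =
      (∫ x, ((m : ℂ)⁻¹ * ∑ i ∈ range m, fourier (i : ℤ) x) * (D.D k x : ℂ) ∂haar) +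
        ((D.C k - V.b k : ℝ) : ℂ) := by
    intro m hm
    have hI : ∀ i : ℤ, Integrable (fun x => fourier i x * (D.D k x : ℂ)) haar := fun i =>
      (D.int k).ofReal.bdd_mul (fourier i).continuous.aestronglyMeasurable
        (.of_forall fun x => (show ‖fourier i x‖ ≤ 1 from (Circle.norm_coe _).le))
    simp only [birkhoffAverage, birkhoffSum, hpow, id_eq, inner_smul_right, inner_sum, V.corr_w D,
      sum_add_distrib, sum_const, card_range, nsmul_eq_mul, mul_add, mul_assoc]
    rw [← integral_finsetSum _ fun i _ => hI ((i : ℕ) : ℤ), ← integral_const_mul, ← mul_assoc,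
      inv_mul_cancel₀ (by exact_mod_cast hm.ne'), one_mul]
    congr 1
    exact integral_congr_ae (.of_forall fun x => by simp only [Finset.sum_mul])
  have h2 : Tendsto (fun _ : ℕ => ((D.C k - V.b k : ℝ) : ℂ)) atTop (𝓝 0) := by
    have := hinner.sub hint
    rw [sub_zero] at this
    refine this.congr' ?_
    filter_upwards [eventually_gt_atTop 0] with m hm
    rw [heq m hm, add_sub_cancel_left]
  have h3 := tendsto_nhds_unique tendsto_const_nhds h2
  rw [Complex.ofReal_eq_zero, sub_eq_zero] at h3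
  exact h3

/-- The correlations of the centred bases are the Fourier coefficients of the densities. -/
theorem corr_w' [CompleteSpace H] (k : ℕ) (q : ℤ) :
    ⟪V.w k, (U ^ q) (V.w k)⟫_ℂ = ∫ x, fourier q x * (D.D k x : ℂ) ∂haar := by
  rw [V.corr_w D, V.C_eq D, sub_self, Complex.ofReal_zero, add_zero]

end Base

end Vale.Agent.P130.Full.Spectral
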