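import Vale.Agent.P130.Full.Statements
import Vale.Agent.P110.Full.Main
import Vale.Agent.P130.Morse.Poly

/-!
P130, module Spectral: the densities of `DensityStatement`, moved to the circle.
-/

noncomputable section

namespace Vale.Agent.P130.Full.Spectral

open MeasureTheory Filter Finset
open Vale.Agent.P110.Full (ch)
open Vale.Agent.P130.Morse (Circ Poly ev ev_single)
open scoped ComplexConjugate Topology

/-- The Haar probability on the circle. -/
abbrev haar : Measure Circ := AddCircle.haarAddCircle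

/-- The representative in `(0, 1]`. -/
def rep (x : Circ) : ℝ := (AddCircle.equivIoc 1 0 x : ℝ)

theorem coe_rep (x : Circ) : ((rep x : ℝ) : Circ) = x := (AddCircle.equivIoc 1 0).symm_apply_apply x

theorem measurableEmbedding_rep : MeasurableEmbedding rep :=
  (MeasurableEmbedding.subtype_coe measurableSet_Ioc).comp
    (AddCircle.measurableEquivIoc (1 : ℝ) 0).measurableEmbedding

theorem volume_circ : (volume : Measure Circ) = haar := by
  rw [AddCircle.volume_eq_smul_haarAddCircle, ENNReal.ofReal_one, one_smul]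

theorem measurePreserving_rep :
    MeasurePreserving rep haar (volume.restrict (Set.Ioc (0 : ℝ) 1)) := by
  have h := AddCircle.measurePreserving_equivIoc (T := (1 : ℝ)) (a := 0)
  refine ⟨measurableEmbedding_rep.measurable, ?_⟩
  rw [show rep = Subtype.val ∘ AddCircle.equivIoc 1 0 from rfl,
    ← Measure.map_map measurable_subtype_coe h.measurable, ← volume_circ, h.map_eq,
    map_comap_subtype_coe measurableSet_Ioc, zero_add]

theorem integral_rep {E : Type*} [NormedAddCommGroup E] [NormedSpace ℝ E] (F : ℝ → E) :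
    ∫ x, F (rep x) ∂haar = ∫ t in (0 : ℝ)..1, F t := by
  rw [measurePreserving_rep.integral_comp measurableEmbedding_rep,
    intervalIntegral.integral_of_le zero_le_one]

theorem fourier_coe (q : ℤ) (t : ℝ) : fourier q (t : Circ) = ch (q * t) := by
  rw [fourier_coe_apply, ch]
  push_cast
  ring_nf

theorem fourier_eq_ch (q : ℤ) (x : Circ) : fourier q x = ch (q * rep x) := by
  rw [← fourier_coe, coe_rep]

/-- The polynomial of stage `n`, acting on bases. -/
def step (S : Stack) (n : ℕ) : Poly :=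
  ∑ j : Fin (S.m n),
    AddMonoidAlgebra.single (-(S.pos n j : ℤ)) ((1 / Real.sqrt (S.m n) : ℝ) : ℂ)

/-- The product of the stages `k ≤ i < n`. -/
def Q (S : Stack) (k n : ℕ) : Poly := ∏ i ∈ Ico k n, step S i

theorem Q_mul (S : Stack) {k l n : ℕ} (hkl : k ≤ l) (hln : l ≤ n) :
    Q S k l * Q S l n = Q S k n := prod_Ico_consecutive _ hkl hln

theorem Q_succ (S : Stack) {k n : ℕ} (h : k ≤ n) : Q S k (n + 1) = Q S k n * step S n :=
  prod_Ico_succ_top h _

theorem ev_step (S : Stack) (n : ℕ) (x : Circ) : ev (step S n) x = conj (S.poly n (rep x)) := by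
  simp only [step, map_sum, ContinuousMap.sum_apply, ev_single, ContinuousMap.smul_apply,
    smul_eq_mul, Stack.poly, map_div₀, Complex.conj_ofReal, Finset.sum_div]
  refine Finset.sum_congr rfl fun j _ => ?_
  rw [Vale.Agent.P110.Full.conj_ch, fourier_eq_ch]
  push_cast
  rw [show -((S.pos n j : ℝ) * rep x) = -(S.pos n j : ℝ) * rep x by ring]
  ring

theorem ev_Q (S : Stack) (k n : ℕ) (x : Circ) : ev (Q S k n) x = conj (S.prod k n (rep x)) := by
  simp only [Q, Stack.prod, map_prod, ContinuousMap.prod_apply, ev_step]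

theorem norm_ev_Q (S : Stack) (k n : ℕ) (x : Circ) :
    ‖ev (Q S k n) x‖ = ‖S.prod k n (rep x)‖ := by rw [ev_Q, RCLike.norm_conj]

/-- The densities on the circle. -/
structure Densities (S : Stack) where
  D : ℕ → Circ → ℝ
  C : ℕ → ℝ
  meas : ∀ k, Measurable (D k)
  nonneg : ∀ k x, 0 ≤ D k x
  int : ∀ k, Integrable (D k) haar
  pos : ∀ k, ∀ᵐ x ∂haar, 0 < D k x
  chain : ∀ k l, k ≤ l → ∀ᵐ x ∂haar, D k x = ‖ev (Q S k l) x‖ ^ 2 * D l x
  lim : ∀ (k : ℕ) (q : ℤ), Tendsto
    (fun n => ∫ x, fourier q x * ((‖ev (Q S k n) x‖ ^ 2 : ℝ) : ℂ) ∂haar) atTop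
    (𝓝 ((∫ x, fourier q x * (D k x : ℂ) ∂haar) + (C k : ℂ)))

theorem restrict_Icc : volume.restrict (Set.Icc (0 : ℝ) 1) =
    volume.restrict (Set.Ioc (0 : ℝ) 1) := restrict_Ioc_eq_restrict_Icc.symm

/-- A measurable nonnegative version on the circle of a density on `[0, 1]`. -/
theorem exists_version (f : ℝ → ℝ) (hf : IntervalIntegrable f volume 0 1) (hnn : ∀ t, 0 ≤ f t) :
    ∃ g : Circ → ℝ, Measurable g ∧ (∀ x, 0 ≤ g x) ∧ Integrable g haar ∧
      ∀ᵐ x ∂haar, g x = f (rep x) := by
  have hio : Integrable f (volume.restrict (Set.Ioc (0 : ℝ) 1)) :=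
    (intervalIntegrable_iff_integrableOn_Ioc_of_le zero_le_one).1 hf
  have hae : (fun t => max 0 (hio.aemeasurable.mk f t)) =ᵐ[volume.restrict (Set.Ioc (0 : ℝ) 1)]
      f := by
    filter_upwards [hio.aemeasurable.ae_eq_mk] with t ht
    rw [← ht, max_eq_right (hnn t)]
  have hi : Integrable (fun t => max 0 (hio.aemeasurable.mk f t))
      (volume.restrict (Set.Ioc (0 : ℝ) 1)) := hio.congr hae.symm
  have hm : Measurable (fun t => max 0 (hio.aemeasurable.mk f t)) :=
    measurable_const.max hio.aemeasurable.measurable_mk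
  have hn : ∀ t, 0 ≤ (fun t => max 0 (hio.aemeasurable.mk f t)) t := fun t => le_max_left _ _
  revert hi hm hn hae
  generalize (fun t => max 0 (hio.aemeasurable.mk f t)) = F
  intro hae hi hm hn
  refine ⟨F ∘ rep, hm.comp measurableEmbedding_rep.measurable, fun x => hn _, ?_, ?_⟩
  · exact (measurePreserving_rep.integrable_comp_emb measurableEmbedding_rep).2 hi
  · exact measurePreserving_rep.quasiMeasurePreserving.ae_eq_comp hae

/-- The correlation of a product, moved to the circle. -/
theorem integral_prod_eq (S : Stack) (k n : ℕ) (q : ℤ) :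
    ∫ x, fourier q x * ((‖ev (Q S k n) x‖ ^ 2 : ℝ) : ℂ) ∂haar =
      ∫ t in (0 : ℝ)..1, ((‖S.prod k n t‖ ^ 2 : ℝ) : ℂ) * ch (q * t) := by
  rw [← integral_rep]
  refine integral_congr_ae (.of_forall fun x => ?_)
  simp only [norm_ev_Q, fourier_eq_ch]
  ring

theorem exists_densities (hD : DensityStatement) (S : Stack) (hS : S.Flat) :
    Nonempty (Densities S) := by
  obtain ⟨D, C, hint, hnn, hpos, hchain, hlim⟩ := hD S hS
  choose g hgm hgnn hgi hg using fun k => exists_version (D k) (hint k) (hnn k)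
  have hpos' : ∀ k, ∀ᵐ t ∂volume.restrict (Set.Ioc (0 : ℝ) 1), 0 < D k t := fun k =>
    restrict_Icc ▸ hpos k
  have hchain' : ∀ k l, k ≤ l → ∀ᵐ t ∂volume.restrict (Set.Ioc (0 : ℝ) 1),
      D k t = ‖S.prod k l t‖ ^ 2 * D l t := fun k l h => restrict_Icc ▸ hchain k l h
  refine ⟨Densities.mk g C hgm hgnn hgi (fun k => ?_) (fun k l hkl => ?_) (fun k q => ?_)⟩
  · filter_upwards [hg k, measurePreserving_rep.quasiMeasurePreserving.ae (hpos' k)] with x h1 h2
    rw [h1]; exact h2
  · filter_upwards [hg k, hg l,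
      measurePreserving_rep.quasiMeasurePreserving.ae (hchain' k l hkl)] with x h1 h2 h3
    rw [h1, h2, norm_ev_Q, h3]
  · have h2 : ∫ x, fourier q x * (g k x : ℂ) ∂haar =
        ∫ t in (0 : ℝ)..1, (D k t : ℂ) * ch (q * t) := by
      rw [← integral_rep]
      refine integral_congr_ae ?_
      filter_upwards [hg k] with x hx
      rw [hx, fourier_eq_ch]
      ring
    rw [h2]
    exact (hlim k q).congr fun n => (integral_prod_eq S k n q).symm

end Vale.Agent.P130.Full.Spectral
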