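import Vale.Agent.P130.Full.Spectral.Base

/-!
P130, module Spectral: a model on the circle for the cyclic spaces of the bases, and the generator
with orthonormal orbit that it gives.
-/

noncomputable section

namespace Vale.Agent.P130.Full.Spectral

open MeasureTheory Filter Finset
open Vale.Agent.P130.Morse (Circ Poly ev ev_single act act_single zpow_zpow_apply inner_zpow_zpow
  exists_ev_close)
open scoped ComplexConjugate InnerProductSpace Topology

variable {S : Stack} (D : Densities S)

/-- The square root of the density of level `k`, with the phase that makes levels consistent. -/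
def root (k : ℕ) (x : Circ) : ℂ := (Real.sqrt (D.D 0 x) : ℂ) / ev (Q S 0 k) x

theorem measurable_root (k : ℕ) : Measurable (root D k) :=
  (Complex.measurable_ofReal.comp (D.meas 0).sqrt).div (ev (Q S 0 k)).continuous.measurable

include D in
theorem ae_ev_ne (n : ℕ) : ∀ᵐ x ∂haar, ev (Q S 0 n) x ≠ 0 := by
  filter_upwards [D.pos 0, D.chain 0 n (Nat.zero_le n)] with x h1 h2 h3
  rw [h2, h3] at h1
  simp at h1

theorem norm_root_sq (k : ℕ) : ∀ᵐ x ∂haar, ‖root D k x‖ ^ 2 = D.D k x := by
  filter_upwards [ae_ev_ne D k, D.chain 0 k (Nat.zero_le k)] with x h1 h2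
  rw [root, norm_div, div_pow, Complex.norm_real, Real.norm_eq_abs, sq_abs,
    Real.sq_sqrt (D.nonneg 0 x), h2, mul_comm, mul_div_assoc,
    div_self (pow_ne_zero 2 (norm_ne_zero_iff.2 h1)), mul_one]

theorem root_eq {k n : ℕ} (h : k ≤ n) :
    ∀ᵐ x ∂haar, root D k x = ev (Q S k n) x * root D n x := by
  filter_upwards [ae_ev_ne D n] with x hn
  have hprod : ev (Q S 0 k) x * ev (Q S k n) x = ev (Q S 0 n) x := by
    rw [← ContinuousMap.mul_apply, ← map_mul, Q_mul S (Nat.zero_le k) h]
  have hk : ev (Q S 0 k) x ≠ 0 := fun h0 => hn (by rw [← hprod, h0, zero_mul])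
  have hkn : ev (Q S k n) x ≠ 0 := fun h0 => hn (by rw [← hprod, h0, mul_zero])
  rw [root, root, ← hprod]
  field_simp

theorem memLp_root (k : ℕ) : MemLp (root D k) 2 haar := by
  rw [memLp_two_iff_integrable_sq_norm (measurable_root D k).aestronglyMeasurable]
  exact (D.int k).congr ((norm_root_sq D k).mono fun x h => h.symm)

theorem memLp_ev_root (k : ℕ) (p : Poly) : MemLp (fun x => ev p x * root D k x) 2 haar :=
  (memLp_root D k).of_le_mul
    ((ev p).continuous.measurable.mul (measurable_root D k)).aestronglyMeasurable (c := ‖ev p‖)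
    (.of_forall fun x => by
      rw [norm_mul]
      exact mul_le_mul_of_nonneg_right ((ev p).norm_coe_le_norm x) (norm_nonneg _))

/-- The model of the image of a base under a polynomial. -/
def model (k : ℕ) (p : Poly) : Lp ℂ 2 haar := (memLp_ev_root D k p).toLp _

theorem model_coe (k : ℕ) (p : Poly) :
    (model D k p : Circ → ℂ) =ᵐ[haar] fun x => ev p x * root D k x :=
  MemLp.coeFn_toLp _

theorem model_lift {k n : ℕ} (h : k ≤ n) (p : Poly) :
    model D k p = model D n (p * Q S k n) := by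
  refine Lp.ext ((model_coe D k p).trans (EventuallyEq.trans ?_ (model_coe D n _).symm))
  filter_upwards [root_eq D h] with x hx
  rw [hx, map_mul, ContinuousMap.mul_apply, mul_assoc]

theorem model_sub (k : ℕ) (p q : Poly) : model D k (p - q) = model D k p - model D k q := by
  refine Lp.ext ((model_coe D k _).trans (EventuallyEq.trans ?_ (Lp.coeFn_sub _ _).symm))
  filter_upwards [model_coe D k p, model_coe D k q] with x h1 h2
  rw [Pi.sub_apply, h1, h2, map_sub, ContinuousMap.sub_apply, sub_mul]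

theorem inner_model (k : ℕ) (p q : Poly) : ⟪model D k p, model D k q⟫_ℂ =
    ∫ x, conj (ev p x) * ev q x * (D.D k x : ℂ) ∂haar := by
  rw [L2.inner_def]
  refine integral_congr_ae ?_
  filter_upwards [model_coe D k p, model_coe D k q, norm_root_sq D k] with x h1 h2 h3
  rw [h1, h2, RCLike.inner_apply, map_mul, ← h3, Complex.ofReal_pow, ← Complex.conj_mul']
  ring

theorem exists_model_close {ε : ℝ} (hε : 0 < ε) :
    ∃ p : Poly, ‖model D 0 p - fourierLp 2 0‖ < ε := by
  set w : Circ → ENNReal := fun x => ENNReal.ofReal (D.D 0 x) with hw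
  set ν : Measure Circ := haar.withDensity w with hν
  have hwm : Measurable w := (D.meas 0).ennreal_ofReal
  have : IsFiniteMeasure ν := isFiniteMeasure_withDensity_ofReal (D.int 0).2
  set G : Circ → ℂ := fun x => (((Real.sqrt (D.D 0 x))⁻¹ : ℝ) : ℂ) with hG
  have hGm : Measurable G := Complex.measurable_ofReal.comp (D.meas 0).sqrt.inv
  have hint : ∀ F : Circ → ℝ, ∫ x, F x ∂ν = ∫ x, D.D 0 x * F x ∂haar := fun F => by
    rw [hν, integral_withDensity_eq_integral_toReal_smul hwm
      (.of_forall fun _ => ENNReal.ofReal_lt_top)]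
    simp only [hw, ENNReal.toReal_ofReal (D.nonneg 0 _), smul_eq_mul]
  have hG2 : MemLp G 2 ν := by
    rw [memLp_two_iff_integrable_sq_norm hGm.aestronglyMeasurable, hν,
      integrable_withDensity_iff hwm (.of_forall fun _ => ENNReal.ofReal_lt_top)]
    refine (integrable_const (1 : ℝ)).mono'
      ((hGm.norm.pow_const 2).mul hwm.ennreal_toReal).aestronglyMeasurable (.of_forall fun x => ?_)
    simp only [hG, hw, Complex.norm_real, Real.norm_eq_abs, sq_abs,
      ENNReal.toReal_ofReal (D.nonneg 0 x)]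
    rw [inv_pow, Real.sq_sqrt (D.nonneg 0 x), abs_of_nonneg (mul_nonneg (inv_nonneg.2 (D.nonneg 0 x))
      (D.nonneg 0 x))]
    rcases eq_or_ne (D.D 0 x) 0 with h | h
    · simp [h]
    · rw [inv_mul_cancel₀ h]
  have hdense : DenseRange (ContinuousMap.toLp (E := ℂ) 2 ν ℂ : C(Circ, ℂ) →L[ℂ] Lp ℂ 2 ν) :=
    ContinuousMap.toLp_denseRange ℂ ν ℂ (by norm_num)
  obtain ⟨F, hF⟩ := hdense.exists_dist_lt (hG2.toLp G) (half_pos hε)
  set T : C(Circ, ℂ) →L[ℂ] Lp ℂ 2 ν := ContinuousMap.toLp 2 ν ℂ with hT
  obtain ⟨p, hp⟩ := exists_ev_close F (show 0 < ε / 2 / (‖T‖ + 1) by positivity)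
  have hclose : ‖T (ev p) - hG2.toLp G‖ < ε := by
    rw [dist_comm, dist_eq_norm] at hF
    have h1 : ‖T (ev p) - T F‖ < ε / 2 := by
      rw [← map_sub]
      refine lt_of_le_of_lt (T.le_opNorm _) ?_
      rw [lt_div_iff₀ (by positivity)] at hp
      nlinarith [norm_nonneg T, norm_nonneg (ev p - F)]
    linarith [norm_sub_le_norm_sub_add_norm_sub (T (ev p)) (T F) (hG2.toLp G)]
  refine ⟨p, lt_of_eq_of_lt ?_ hclose⟩
  have hsq : ∀ {μ : Measure Circ} (u : Lp ℂ 2 μ), ‖u‖ ^ 2 = ∫ x, ‖u x‖ ^ 2 ∂μ := by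
    intro μ u
    have h : ((‖u‖ ^ 2 : ℝ) : ℂ) = ((∫ x, ‖u x‖ ^ 2 ∂μ : ℝ) : ℂ) := by
      rw [← integral_complex_ofReal, Complex.ofReal_pow,
        ← show ⟪u, u⟫_ℂ = (‖u‖ : ℂ) ^ 2 from inner_self_eq_norm_sq_to_K u, L2.inner_def]
      refine integral_congr_ae (.of_forall fun x => ?_)
      simp only [RCLike.inner_apply, Complex.mul_conj', Complex.ofReal_pow]
    exact_mod_cast h
  refine (pow_left_inj₀ (norm_nonneg _) (norm_nonneg _) two_ne_zero).1 ?_
  rw [hsq, hsq]
  have hν' : (T (ev p) - hG2.toLp G : Circ → ℂ) =ᵐ[ν] fun x => ev p x - G x := by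
    filter_upwards [ContinuousMap.coeFn_toLp (𝕜 := ℂ) (p := 2) ν (ev p), hG2.coeFn_toLp]
      with x h1 h2
    rw [Pi.sub_apply, h1, h2]
  rw [integral_congr_ae (g := fun x => ‖ev p x - G x‖ ^ 2)
    ((Lp.coeFn_sub _ _).trans hν' |>.mono fun x h => by simp only [h]), hint]
  refine integral_congr_ae ?_
  filter_upwards [Lp.coeFn_sub (model D 0 p) (fourierLp 2 0), model_coe D 0 p,
    coeFn_fourierLp (T := (1 : ℝ)) 2 0, D.pos 0] with x h1 h2 h3 h4
  rw [h1, Pi.sub_apply, h2, h3, fourier_zero]
  have hs : (Real.sqrt (D.D 0 x) : ℂ) ≠ 0 := by exact_mod_cast (Real.sqrt_pos.2 h4).ne'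
  have hroot : root D 0 x = (Real.sqrt (D.D 0 x) : ℂ) := by
    simp [root, Q]
  have he : ev p x * root D 0 x - 1 = (Real.sqrt (D.D 0 x) : ℂ) * (ev p x - G x) := by
    rw [hroot, hG]
    push_cast
    field_simp
  rw [he, norm_mul, mul_pow, Complex.norm_real, Real.norm_eq_abs, sq_abs,
    Real.sq_sqrt h4.le]

variable {H : Type*} [NormedAddCommGroup H] [InnerProductSpace ℂ H] [CompleteSpace H]
variable {U : H ≃ₗᵢ[ℂ] H} (V : Base S U)

theorem inner_act_w (k : ℕ) (p q : Poly) :
    ⟪act U p (V.w k), act U q (V.w k)⟫_ℂ = ⟪model D k p, model D k q⟫_ℂ := by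
  rw [inner_model]
  have hint : ∀ a b : Poly, Integrable (fun x => conj (ev a x) * ev b x * (D.D k x : ℂ)) haar :=
    fun a b => (D.int k).ofReal.bdd_mul (c := ‖ev a‖ * ‖ev b‖)
      (by fun_prop : Continuous fun x => conj (ev a x) * ev b x).aestronglyMeasurable
      (.of_forall fun x => by
        rw [norm_mul, RCLike.norm_conj]
        exact mul_le_mul ((ev a).norm_coe_le_norm x) ((ev b).norm_coe_le_norm x) (norm_nonneg _)
          (norm_nonneg _))
  induction p using AddMonoidAlgebra.induction_linear with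
  | zero => simp
  | add a b ha hb =>
    rw [map_add, add_apply, inner_add_left, ha, hb, ← integral_add (hint _ _) (hint _ _)]
    exact integral_congr_ae (.of_forall fun x => by simp [map_add]; ring)
  | single m r =>
    induction q using AddMonoidAlgebra.induction_linear with
    | zero => simp
    | add a b ha hb =>
      rw [map_add, add_apply, inner_add_right, ha, hb, ← integral_add (hint _ _) (hint _ _)]
      exact integral_congr_ae (.of_forall fun x => by simp [map_add]; ring)
    | single l s =>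
      rw [act_single, act_single, inner_smul_left, inner_smul_right, inner_zpow_zpow,
        V.corr_w' D, ← integral_const_mul, ← integral_const_mul]
      refine integral_congr_ae (.of_forall fun x => ?_)
      simp only [ev_single, ContinuousMap.smul_apply, smul_eq_mul, map_mul, ← fourier_neg,
        sub_eq_neg_add, fourier_add]
      ring

theorem norm_act_w (k : ℕ) (p : Poly) : ‖act U p (V.w k)‖ = ‖model D k p‖ := by
  rw [@norm_eq_sqrt_re_inner ℂ, @norm_eq_sqrt_re_inner ℂ, inner_act_w D V]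

omit [CompleteSpace H] in
theorem inner_one_act (p : Poly) (x : H) : ⟪V.one, act U p x⟫_ℂ = ev p 0 * ⟪V.one, x⟫_ℂ := by
  induction p using AddMonoidAlgebra.induction_linear with
  | zero => simp
  | add a b ha hb => rw [map_add, add_apply, inner_add_right, ha, hb, map_add,
      ContinuousMap.add_apply, add_mul]
  | single m r =>
    rw [act_single, inner_smul_right, V.inner_one_zpow, ev_single, ContinuousMap.smul_apply,
      fourier_eval_zero, smul_eq_mul, mul_one]

omit [CompleteSpace H] in
theorem act_one (p : Poly) : act U p V.one = ev p 0 • V.one := by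
  induction p using AddMonoidAlgebra.induction_linear with
  | zero => simp
  | add a b ha hb => rw [map_add, add_apply, ha, hb, map_add, ContinuousMap.add_apply, add_smul]
  | single m r =>
    rw [act_single, V.zpow_one_eq, ev_single, ContinuousMap.smul_apply, fourier_eval_zero,
      smul_eq_mul, mul_one]

omit [CompleteSpace H] in
theorem w_lift {k n : ℕ} (h : k ≤ n) : V.w k = act U (Q S k n) (V.w n) := by
  have hsq : (Real.sqrt (V.b k) : ℂ) = ev (Q S k n) 0 * (Real.sqrt (V.b n) : ℂ) := by
    rw [← V.inner_one_v, ← V.inner_one_v n, V.v_eq_Q h, inner_one_act]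
  rw [Base.w, Base.w, map_sub, map_smul, ← V.v_eq_Q h, act_one, smul_smul, hsq,
    mul_comm (ev (Q S k n) 0)]

theorem norm_act_sub {l : ℕ} (p : Poly) :
    ‖act U p (V.w 0) - V.w l‖ = ‖model D 0 p - model D l 1‖ := by
  have h : act U p (V.w 0) - V.w l = act U (p * Q S 0 l - 1) (V.w l) := by
    rw [map_sub, sub_apply, map_mul, mul_apply_eq_comp, ← w_lift V (Nat.zero_le l), map_one,
      one_apply_eq_self]
  rw [h, norm_act_w D V, model_sub, ← model_lift D (Nat.zero_le l)]

/-- Multiplying by a trigonometric polynomial is bounded by its supremum. -/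
theorem norm_model_sub_fourier (s p : Poly) :
    ‖model D 0 (s * p) - ContinuousMap.toLp (E := ℂ) 2 haar ℂ (ev s)‖ ≤
      ‖ev s‖ * ‖model D 0 p - fourierLp 2 0‖ := by
  refine Lp.norm_le_mul_norm_of_ae_le_mul ?_
  filter_upwards [Lp.coeFn_sub (model D 0 (s * p)) (ContinuousMap.toLp 2 haar ℂ (ev s)),
    Lp.coeFn_sub (model D 0 p) (fourierLp 2 0), model_coe D 0 (s * p), model_coe D 0 p,
    ContinuousMap.coeFn_toLp (𝕜 := ℂ) (p := 2) haar (ev s),
    coeFn_fourierLp (T := (1 : ℝ)) 2 0] with x h1 h2 h3 h4 h5 h6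
  rw [h1, h2, Pi.sub_apply, Pi.sub_apply, h3, h4, h5, h6, fourier_zero, map_mul,
    ContinuousMap.mul_apply, mul_assoc, ← mul_sub_one, norm_mul]
  exact mul_le_mul_of_nonneg_right ((ev s).norm_coe_le_norm x) (norm_nonneg _)

include D V in
/-- The generator. -/
theorem exists_generator : ∃ f : H, Orthonormal ℂ (fun q : ℤ => (U ^ q) f) ∧
    ⟪V.one, f⟫_ℂ = 0 ∧
    ∀ g : H, ⟪V.one, g⟫_ℂ = 0 → (∀ q : ℤ, ⟪(U ^ q) f, g⟫_ℂ = 0) → g = 0 := by
  choose p hp using fun j : ℕ => exists_model_close D (show (0 : ℝ) < 1 / ((j : ℝ) + 1) by positivity)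
  have htend : Tendsto (fun j => model D 0 (p j)) atTop (𝓝 (fourierLp 2 0)) :=
    tendsto_iff_norm_sub_tendsto_zero.2 (squeeze_zero (fun _ => norm_nonneg _)
      (fun j => (hp j).le) tendsto_one_div_add_atTop_nhds_zero_nat)
  have htendS : ∀ s : Poly, Tendsto (fun j => model D 0 (s * p j)) atTop
      (𝓝 (ContinuousMap.toLp (E := ℂ) 2 haar ℂ (ev s))) := fun s => by
    refine tendsto_iff_norm_sub_tendsto_zero.2 (squeeze_zero (fun _ => norm_nonneg _)
      (fun j => norm_model_sub_fourier D s (p j)) ?_)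
    simpa using (tendsto_iff_norm_sub_tendsto_zero.1 htend).const_mul ‖ev s‖
  have hcauchy : CauchySeq fun j => act U (p j) (V.w 0) := by
    refine cauchySeq_of_le_tendsto_0' (fun j => 2 / ((j : ℝ) + 1)) (fun i j hij => ?_) ?_
    · rw [dist_eq_norm, ← sub_apply, ← map_sub, norm_act_w D V, model_sub]
      refine le_trans (norm_sub_le_norm_sub_add_norm_sub _ (fourierLp 2 0) _) ?_
      rw [norm_sub_rev (fourierLp 2 0)]
      refine le_trans (add_le_add (hp i).le (hp j).le) ?_
      have : 1 / ((j : ℝ) + 1) ≤ 1 / ((i : ℝ) + 1) := by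
        refine one_div_le_one_div_of_le (by positivity) ?_
        exact_mod_cast Nat.succ_le_succ hij
      rw [show (2 : ℝ) / ((i : ℝ) + 1) = 1 / ((i : ℝ) + 1) + 1 / ((i : ℝ) + 1) by ring]
      linarith
    · simpa [div_eq_mul_inv] using tendsto_one_div_add_atTop_nhds_zero_nat.const_mul (2 : ℝ)
  obtain ⟨f, hf⟩ := cauchySeq_tendsto_of_complete hcauchy
  have hfs : ∀ s : Poly, Tendsto (fun j => act U (s * p j) (V.w 0)) atTop (𝓝 (act U s f)) := by
    intro s
    simp only [map_mul, mul_apply_eq_comp]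
    exact ((act U s).continuous.tendsto f).comp hf
  refine ⟨f, ?_, ?_, fun g hg1 hg => ?_⟩
  · rw [orthonormal_iff_ite]
    intro a b
    refine tendsto_nhds_unique (f := fun j =>
      ⟪act U (AddMonoidAlgebra.single a 1 * p j) (V.w 0),
        act U (AddMonoidAlgebra.single b 1 * p j) (V.w 0)⟫_ℂ) (l := atTop) ?_ ?_
    · have hpow : ∀ k : ℤ, (U ^ k) f = act U (AddMonoidAlgebra.single k 1) f := fun k => by
        rw [act_single, one_smul]
      rw [hpow a, hpow b]
      exact Filter.Tendsto.inner (hfs _) (hfs _)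
    · simp only [inner_act_w D V]
      have h := Filter.Tendsto.inner (𝕜 := ℂ) (htendS (AddMonoidAlgebra.single a 1))
        (htendS (AddMonoidAlgebra.single b 1))
      rw [ev_single, ev_single, one_smul, one_smul] at h
      have h2 : ⟪fourierLp (T := (1 : ℝ)) 2 a, fourierLp (T := (1 : ℝ)) 2 b⟫_ℂ =
          if a = b then 1 else 0 := orthonormal_iff_ite.1 orthonormal_fourier a b
      rw [← h2]
      exact h
  · refine tendsto_nhds_unique ((tendsto_const_nhds (x := V.one)).inner hf) ?_
    simp only [inner_one_act, V.inner_one_w, mul_zero]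
    exact tendsto_const_nhds
  · have hg' : ∀ (s : Poly) (i : ℤ), ⟪(U ^ i) g, act U s f⟫_ℂ = 0 := by
      intro s i
      induction s using AddMonoidAlgebra.induction_linear with
      | zero => simp
      | add a b ha hb => rw [map_add, add_apply, inner_add_right, ha, hb, add_zero]
      | single m r =>
        rw [act_single, inner_smul_right, inner_zpow_zpow, ← inner_conj_symm, hg, map_zero,
          mul_zero]
    have hw : ∀ (l : ℕ) (i : ℤ), ⟪(U ^ i) g, V.w l⟫_ℂ = 0 := by
      intro l i
      rw [← norm_le_zero_iff]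
      refine le_of_forall_pos_le_add fun ε hε => ?_
      rw [zero_add]
      have hM : (model D l 1 : Lp ℂ 2 haar) ∈
          (Submodule.span ℂ (Set.range (@fourierLp (1 : ℝ) _ 2 _))).topologicalClosure := by
        rw [span_fourierLp_closure_eq_top (by norm_num)]; trivial
      have hle : Submodule.span ℂ (Set.range (@fourierLp (1 : ℝ) _ 2 _)) ≤
          LinearMap.range ((ContinuousMap.toLp (E := ℂ) 2 haar ℂ).toLinearMap ∘ₗ
            ev.toLinearMap) := by
        rw [Submodule.span_le]
        rintro _ ⟨k, rfl⟩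
        refine ⟨AddMonoidAlgebra.single k 1, ?_⟩
        show ContinuousMap.toLp (E := ℂ) 2 haar ℂ (ev (AddMonoidAlgebra.single k 1)) = _
        rw [ev_single, one_smul]
      obtain ⟨F, hF, hd⟩ := Metric.mem_closure_iff.1 hM (ε / (‖(U ^ i) g‖ + 1)) (by positivity)
      obtain ⟨s, rfl⟩ := hle hF
      have hlim : Tendsto (fun j => ‖act U (s * p j) (V.w 0) - V.w l‖) atTop
          (𝓝 ‖act U s f - V.w l‖) := ((hfs s).sub_const _).norm
      simp only [norm_act_sub D V] at hlim
      have heq := tendsto_nhds_unique hlim (((htendS s).sub_const _).norm)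
      have hd' : ‖act U s f - V.w l‖ < ε / (‖(U ^ i) g‖ + 1) := by
        rw [heq, norm_sub_rev, ← dist_eq_norm]
        exact hd
      calc ‖⟪(U ^ i) g, V.w l⟫_ℂ‖ = ‖⟪(U ^ i) g, V.w l - act U s f⟫_ℂ‖ := by
            rw [inner_sub_right, hg', sub_zero]
        _ ≤ ‖(U ^ i) g‖ * ‖act U s f - V.w l‖ := by
            rw [norm_sub_rev (act U s f)]; exact norm_inner_le_norm _ _
        _ ≤ ε := by
            rw [lt_div_iff₀ (by positivity)] at hd'
            nlinarith [norm_nonneg (act U s f - V.w l)]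
    have hg0 : ∀ i : ℤ, ⟪(U ^ i) g, V.one⟫_ℂ = 0 := fun i => by
      rw [← V.zpow_one_eq i, LinearIsometryEquiv.inner_map_map, ← inner_conj_symm, hg1, map_zero]
    refine V.total g fun n i _ => ?_
    have h := hw n (i : ℤ)
    rw [Base.w, inner_sub_right, inner_smul_right, hg0, mul_zero, sub_zero] at h
    rw [← LinearIsometryEquiv.inner_map_map (U ^ (i : ℤ)), zpow_zpow_apply, add_neg_cancel,
      zpow_zero]
    exact h

end Vale.Agent.P130.Full.Spectral
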